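import Vale.Agent.P154.Neg.Large.Defs

/-!
# P154: range of the two invariants on the simplex
-/

namespace Vale.Agent.P154.Neg.Large

variable {p : Fin 3 → ℝ}

lemma pS_nonneg (p : Fin 3 → ℝ) : 0 ≤ pS p := by
  unfold pS; positivity

lemma pS_le_one (hp : Simp p) : pS p ≤ 1 := by
  obtain ⟨h0, h1⟩ := hp
  have e : p 2 = 1 - p 0 - p 1 := by linarith
  have hi : 0 ≤ p 0 * p 1 + p 0 * p 2 + p 1 * p 2 := by
    have := mul_nonneg (h0 0) (h0 1)
    have := mul_nonneg (h0 0) (h0 2)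
    have := mul_nonneg (h0 1) (h0 2)
    linarith
  rw [e] at hi
  simp only [pS, Fin.sum_univ_three]
  rw [e]
  linarith

lemma pC_sq_le (hp : Simp p) : pC p ^ 2 ≤ pS p ^ 3 := by
  obtain ⟨-, h1⟩ := hp
  have e : p 2 = 1 - p 0 - p 1 := by linarith
  simp only [pS, pC, Fin.sum_univ_three]
  rw [e]
  nlinarith [sq_nonneg (((p 0 - 1 / 3) - (p 1 - 1 / 3)) * (2 * (p 0 - 1 / 3) + (p 1 - 1 / 3))
    * ((p 0 - 1 / 3) + 2 * (p 1 - 1 / 3)))]

lemma pC_le_pow (hp : Simp p) {t : ℝ} (ht : 0 ≤ t) (e : t ^ 2 = pS p) :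
    -t ^ 3 ≤ pC p ∧ pC p ≤ t ^ 3 := by
  have h : pC p ^ 2 ≤ (t ^ 3) ^ 2 := by
    rw [show (t ^ 3) ^ 2 = (t ^ 2) ^ 3 by ring, e]; exact pC_sq_le hp
  exact abs_le.1 (abs_le_of_sq_le_sq h (pow_nonneg ht 3))

lemma pC_ge (hp : Simp p) : 3 / 2 * pS p - 1 / 2 ≤ pC p := by
  obtain ⟨h0, h1⟩ := hp
  have h := mul_nonneg (mul_nonneg (h0 0) (h0 1)) (h0 2)
  have e : p 2 = 1 - p 0 - p 1 := by linarith
  rw [e] at h
  simp only [pS, pC, Fin.sum_univ_three]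
  rw [e]
  nlinarith [h]

lemma pC_le_pS (hp : Simp p) : pC p ≤ pS p := by
  have h := pS_nonneg p
  refine (abs_le.1 (abs_le_of_sq_le_sq ((pC_sq_le hp).trans ?_) h)).2
  nlinarith [pS_le_one hp, mul_nonneg (sq_nonneg (pS p)) (sub_nonneg.2 (pS_le_one hp))]

/-- Shrink a probability vector towards the uniform one. -/
noncomputable def shrink (u : ℝ) (p : Fin 3 → ℝ) : Fin 3 → ℝ :=
  fun i => 1 / 3 + u * (p i - 1 / 3)

lemma simp_shrink {u : ℝ} (h0 : 0 ≤ u) (h1 : u ≤ 1) (hp : Simp p) : Simp (shrink u p) := by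
  refine ⟨fun i => ?_, ?_⟩
  · simp only [shrink]; nlinarith [mul_nonneg h0 (hp.1 i)]
  · have := hp.2
    simp only [shrink]; linear_combination u * this

lemma pS_shrink (u : ℝ) (p : Fin 3 → ℝ) : pS (shrink u p) = u ^ 2 * pS p := by
  simp only [pS, shrink, Finset.mul_sum]
  exact Finset.sum_congr rfl fun i _ => by ring

lemma pC_shrink (u : ℝ) (p : Fin 3 → ℝ) : pC (shrink u p) = u ^ 3 * pC p := by
  simp only [pC, shrink, Finset.mul_sum]
  exact Finset.sum_congr rfl fun i _ => by ring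

end Vale.Agent.P154.Neg.Large
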