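import Vale.Agent.P154.Neg.Large.Cert
import Vale.Agent.P154.Neg.Large.Simplex

/-!
# P154: the certified pointwise inequality of the small-edge potential

The difference of the two sides is `λ²` times a polynomial in the invariants. On each of two regions
for each posterior it is a tensor Bernstein form whose coefficient polynomials have no negative
coefficient.
-/

namespace Vale.Agent.P154.Neg.Large

open Finset Filter Topology

/-- Cubic Bernstein basis. -/
noncomputable def bp (q : Fin 4) (κ : ℝ) : ℝ :=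
  ![(1 - κ) ^ 3, 3 * (1 - κ) ^ 2 * κ, 3 * (1 - κ) * κ ^ 2, κ ^ 3] q

lemma bp_nonneg {κ : ℝ} (h0 : 0 ≤ κ) (h1 : κ ≤ 1) (q : Fin 4) : 0 ≤ bp q κ := by
  have : (0 : ℝ) ≤ 1 - κ := by linarith
  fin_cases q <;> simp [bp] <;> positivity

lemma blos_eq (κ : ℝ) (lo up : Kron.Ex) (x : Fin 4 → ℝ) {j : ℕ} (hj : j ≤ 3) :
    3 * ((1 - κ) * lo.evR x + κ * up.evR x) ^ j
      = ∑ q, bp q κ * (blosEx q j lo up).evR x := by
  interval_cases j <;>
    (simp [Fin.sum_univ_four, bp, blosEx, Kron.Ex.evR]; ring)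

/-- The parameters of a posterior: a region, `y`, and the position between the two ends. -/
structure Param (S C : ℝ) (R : Bool) (u κ : ℝ) : Prop where
  y0 : 0 ≤ u
  k0 : 0 ≤ κ
  k1 : κ ≤ 1
  eS : ∀ (y : Kron.Ex) (x : Fin 4 → ℝ), y.evR x = u →
    4 * (1 + u) ^ 2 * S = (tEx R y).evR x ^ 2
  eC : ∀ (y : Kron.Ex) (x : Fin 4 → ℝ), y.evR x = u →
    8 * (1 + u) ^ 3 * C = (1 - κ) * (loEx R y).evR x + κ * (upEx R y).evR x

lemma interp {a b c : ℝ} (h0 : a ≤ c) (h1 : c ≤ b) :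
    ∃ κ, 0 ≤ κ ∧ κ ≤ 1 ∧ c = (1 - κ) * a + κ * b := by
  rcases (h0.trans h1).eq_or_lt with h | h
  · exact ⟨0, le_rfl, zero_le_one, by linarith⟩
  · refine ⟨(c - a) / (b - a), div_nonneg (by linarith) (by linarith), ?_, ?_⟩
    · rw [div_le_one (by linarith)]; linarith
    · have : b - a ≠ 0 := by linarith
      field_simp
      ring

lemma exists_param {p : Fin 3 → ℝ} (hp : Simp p) (h1 : pS p < 1) :
    ∃ R u κ, Param (pS p) (pC p) R u κ := by
  set S := pS p
  set C := pC p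
  obtain ⟨hlo, hhi⟩ := pC_le_pow hp (Real.sqrt_nonneg S) (Real.sq_sqrt (pS_nonneg p))
  have hge := pC_ge hp
  set t := Real.sqrt S with ht
  have ht0 : 0 ≤ t := Real.sqrt_nonneg S
  have hS : t ^ 2 = S := Real.sq_sqrt (pS_nonneg p)
  have ht1 : t < 1 := by
    have := Real.sqrt_lt_sqrt (pS_nonneg p) h1
    simpa using this
  rcases lt_or_ge t (1 / 2) with h | h
  · have hd : 0 < 1 - 2 * t := by linarith
    set u := 2 * t / (1 - 2 * t) with hu
    have hu0 : 0 ≤ u := div_nonneg (by linarith) hd.le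
    have hT : 2 * t * (1 + u) = u := by
      simp only [hu]; field_simp; ring
    have hv : 0 ≤ 8 * (1 + u) ^ 3 := by positivity
    have e3 : 8 * (1 + u) ^ 3 * t ^ 3 = u ^ 3 := by
      conv_rhs => rw [← hT]
      ring
    obtain ⟨κ, k0, k1, hk⟩ := interp (c := 8 * (1 + u) ^ 3 * C) (a := -u ^ 3) (b := u ^ 3)
      (by have := mul_le_mul_of_nonneg_left hlo hv; linarith)
      (by have := mul_le_mul_of_nonneg_left hhi hv; linarith)
    refine ⟨false, u, κ, hu0, k0, k1, fun y x hy => ?_, fun y x hy => ?_⟩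
    · simp only [tEx, Bool.false_eq_true, if_false, hy]
      rw [← hS]; linear_combination (2 * t * (1 + u) + u) * hT
    · rw [hk]
      simp [loEx, upEx, tEx, Kron.Ex.evR, hy]
  · have hd : 0 < 1 - t := by linarith
    set u := (2 * t - 1) / (2 * (1 - t)) with hu
    have hu0 : 0 ≤ u := div_nonneg (by linarith) (by linarith)
    have hT : 2 * t * (1 + u) = 1 + 2 * u := by
      simp only [hu]; field_simp; ring
    have hv : 0 ≤ 8 * (1 + u) ^ 3 := by positivity
    have e3 : 8 * (1 + u) ^ 3 * t ^ 3 = (1 + 2 * u) ^ 3 := by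
      rw [← hT]; ring
    have e2 : 8 * (1 + u) ^ 3 * (3 / 2 * S - 1 / 2)
        = (1 + u) * (3 * (1 + 2 * u) ^ 2 - 4 * (1 + u) ^ 2) := by
      rw [← hS, ← hT]; ring
    obtain ⟨κ, k0, k1, hk⟩ := interp (c := 8 * (1 + u) ^ 3 * C)
      (a := (1 + u) * (3 * (1 + 2 * u) ^ 2 - 4 * (1 + u) ^ 2)) (b := (1 + 2 * u) ^ 3)
      (by have := mul_le_mul_of_nonneg_left hge hv; linarith)
      (by have := mul_le_mul_of_nonneg_left hhi hv; linarith)
    refine ⟨true, u, κ, hu0, k0, k1, fun y x hy => ?_, fun y x hy => ?_⟩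
    · simp only [tEx, if_true, Kron.Ex.evR, hy]
      push_cast
      rw [← hS]; linear_combination (2 * t * (1 + u) + 1 + 2 * u) * hT
    · rw [hk]
      simp only [loEx, upEx, tEx, onePlus, if_true, Kron.Ex.evR, hy]
      push_cast
      ring

variable {S C : ℝ} {R : Bool} {u κ : ℝ}

lemma side_eq (h : Param S C R u κ) {y : Kron.Ex} {x : Fin 4 → ℝ} (hy : y.evR x = u) {i j : ℕ}
    (hN : 2 * i + 3 * j ≤ 10) :
    3 * 2 ^ 10 * (1 + u) ^ 10 * ((6 * S) ^ i * (6 * C) ^ j)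
      = ∑ q, bp q κ * (sideEx R q i j y).evR x := by
  obtain ⟨r, hr⟩ := Nat.exists_eq_add_of_le hN
  have hsub : 10 - (2 * i + 3 * j) = r := by omega
  have hb := blos_eq κ (loEx R y) (upEx R y) x (show j ≤ 3 by omega)
  rw [← h.eC y x hy] at hb
  simp only [sideEx, Kron.Ex.evR, onePlus, hy, hsub]
  push_cast
  rw [hr]
  have key : ∀ K : ℝ, ∑ q, bp q κ * (K * ((1 + u) ^ r
      * ((tEx R y).evR x ^ (2 * i) * (blosEx q j (loEx R y) (upEx R y)).evR x)))
      = K * ((1 + u) ^ r * ((tEx R y).evR x ^ (2 * i) * (3 * (8 * (1 + u) ^ 3 * C) ^ j))) := by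
    intro K
    rw [hb, Finset.mul_sum, Finset.mul_sum, Finset.mul_sum]
    exact Finset.sum_congr rfl fun q _ => by ring
  rw [key, pow_mul ((tEx R y).evR x), ← h.eS y x hy]
  simp only [mul_pow, pow_add, ← pow_mul]
  rw [show (4 : ℝ) ^ i = 2 ^ (2 * i) by rw [pow_mul]; norm_num,
    show (8 : ℝ) ^ j = 2 ^ (3 * j) by rw [pow_mul]; norm_num]
  ring

lemma blos_scale (q : Fin 4) (v : ℝ) (y : Kron.Ex) (x : Fin 4 → ℝ) (hy : y.evR x = v) {j : ℕ}
    (hj : j ≤ 3) : (blosEx q j (loEx false y) (upEx false y)).evR x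
      = v ^ (3 * j) * (blosEx q j (.cst (-1)) (.cst 1)).evR x := by
  fin_cases q <;> interval_cases j <;>
    (simp [blosEx, loEx, upEx, tEx, Kron.Ex.evR, hy]; try ring)

/-- The factor removed on the child's side. -/
noncomputable def childFac (R : Bool) (u : ℝ) : ℝ := if R then 1 else u ^ 2

lemma child_eq (q : Fin 4) {y : Kron.Ex} {x : Fin 4 → ℝ} (hy : y.evR x = u) {i j : ℕ}
    (h2 : 2 ≤ 2 * i + 3 * j) (hN : 2 * i + 3 * j ≤ 10) :
    (sideEx R q i j y).evR x = childFac R u * (childEx R q i j y).evR x := by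
  cases R
  · obtain ⟨r, hr⟩ := Nat.exists_eq_add_of_le h2
    simp only [sideEx, childEx, childFac, Bool.false_eq_true, if_false, Kron.Ex.evR, onePlus, hy,
      blos_scale q u y x hy (show j ≤ 3 by omega)]
    simp only [tEx, Bool.false_eq_true, if_false, hy]
    have : (u : ℝ) ^ (2 * i) * u ^ (3 * j) = u ^ 2 * u ^ (2 * i + 3 * j - 2) := by
      rw [← pow_add, ← pow_add]; congr 1; omega
    linear_combination
      ((2 ^ (10 - (2 * i + 3 * j)) * 6 ^ (i + j) : ℕ) : ℝ) * (1 + u) ^ (10 - (2 * i + 3 * j))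
        * (blosEx q j (.cst (-1)) (.cst 1)).evR x * this
  · simp [childEx, childFac]

variable {T D : ℝ} {R' : Bool} {v μ : ℝ}

lemma term_eq (h : Param S C R u κ) (h' : Param T D R' v μ) {w l : ℝ}
    (hl : 3 * (1 + w) * l = -w) (t : Term) (ht : termOk t = true) :
    (3 : ℝ) ^ 8 * (1 + w) ^ 8 * (3 * 2 ^ 10 * (1 + u) ^ 10) * (3 * 2 ^ 10 * (1 + v) ^ 10)
        * t.val l (6 * S) (6 * C) (6 * T) (6 * D)
      = childFac R u * ∑ p, ∑ q, bp p κ * bp q μ
          * (gtermEx R R' p q t).evR ![w, u, v, 1] := by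
  simp only [termOk, Bool.and_eq_true, decide_eq_true_eq] at ht
  obtain ⟨⟨⟨he, h2⟩, hN⟩, hM⟩ := ht
  set x : Fin 4 → ℝ := ![w, u, v, 1] with hx
  have hu : (Kron.Ex.var 1).evR x = u := by simp [Kron.Ex.evR, hx]
  have hv : (Kron.Ex.var 2).evR x = v := by simp [Kron.Ex.evR, hx]
  have hw : (Kron.Ex.var 0).evR x = w := by simp [Kron.Ex.evR, hx]
  have e1 := side_eq h hu hN
  have e2 := side_eq h' hv hM
  simp only [child_eq (R := R) _ hu h2 hN] at e1
  obtain ⟨r, hr⟩ := Nat.exists_eq_add_of_le he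
  have h8 : 8 - t.e = r := by omega
  have er : (3 : ℝ) ^ 8 * (1 + w) ^ 8 * l ^ t.e
      = (-1) ^ t.e * 3 ^ r * (w ^ t.e * (1 + w) ^ r) := by
    have h3 : (3 * (1 + w) * l) ^ t.e = (-w) ^ t.e := by rw [hl]
    rw [neg_pow] at h3
    rw [hr, pow_add, pow_add]
    simp only [mul_pow] at h3
    linear_combination (3 : ℝ) ^ r * (1 + w) ^ r * h3
  simp only [gtermEx, Kron.Ex.evR, onePlus, h8, hu, hv, hw] at e1 e2 ⊢
  calc _ = (t.c : ℝ) * ((3 : ℝ) ^ 8 * (1 + w) ^ 8 * l ^ t.e)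
        * (3 * 2 ^ 10 * (1 + u) ^ 10 * ((6 * S) ^ t.i * (6 * C) ^ t.j))
        * (3 * 2 ^ 10 * (1 + v) ^ 10 * ((6 * T) ^ t.m * (6 * D) ^ t.n)) := by
        simp only [Term.val]; ring
    _ = _ := by
        rw [e1, e2, er]
        simp only [Finset.mul_sum, Finset.sum_mul]
        rw [Finset.sum_comm]
        exact Finset.sum_congr rfl fun p _ => Finset.sum_congr rfl fun q _ => by
          rw [show x 0 = w from rfl]; push_cast; ring

lemma piece_check (k : Fin 2) : ∀ R S p q,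
    Kron.testNN (pieceEx k R S p q) ![9, 11, 11, 1] 11 104 = true := by
  fin_cases k
  · exact piece_check0
  · exact piece_check1

lemma evT_gTerms_nonneg (k : Fin 2) (h : Param S C R u κ) (h' : Param T D R' v μ) {w l : ℝ}
    (hw : 0 ≤ w) (hl : 3 * (1 + w) * l = -w) :
    0 ≤ evT (gTerms k) l (6 * S) (6 * C) (6 * T) (6 * D) := by
  set x : Fin 4 → ℝ := ![w, u, v, 1] with hx
  have hpos : 0 < (3 : ℝ) ^ 8 * (1 + w) ^ 8 * (3 * 2 ^ 10 * (1 + u) ^ 10)
      * (3 * 2 ^ 10 * (1 + v) ^ 10) := by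
    have := h.y0; have := h'.y0; positivity
  have key : ∀ L : List Term, (∀ t ∈ L, termOk t = true) →
      (3 : ℝ) ^ 8 * (1 + w) ^ 8 * (3 * 2 ^ 10 * (1 + u) ^ 10) * (3 * 2 ^ 10 * (1 + v) ^ 10)
          * evT L l (6 * S) (6 * C) (6 * T) (6 * D)
        = childFac R u * ∑ p, ∑ q, bp p κ * bp q μ
            * (sumEx (L.map (gtermEx R R' p q))).evR x := by
    intro L
    induction L with
    | nil => intro _; simp [sumEx, Kron.Ex.evR]
    | cons t L ih =>
      intro hL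
      have a := term_eq h h' hl t (hL t List.mem_cons_self)
      have b := ih fun s hs => hL s (List.mem_cons_of_mem _ hs)
      simp only [List.map_cons, sumEx, Kron.Ex.evR, mul_add, Finset.sum_add_distrib, evT_cons]
      rw [a, b]
  refine nonneg_of_mul_nonneg_right ?_ hpos
  rw [key _ (gTerms_ok k)]
  refine mul_nonneg ?_ (Finset.sum_nonneg fun p _ => Finset.sum_nonneg fun q _ => ?_)
  · unfold childFac; split_ifs <;> positivity
  · refine mul_nonneg (mul_nonneg (bp_nonneg h.k0 h.k1 p) (bp_nonneg h'.k0 h'.k1 q)) ?_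
    refine Kron.nonneg_of_testNN (piece_check k R R' p q) x fun i => ?_
    have := h.y0; have := h'.y0
    fin_cases i <;> simp [hx] <;> assumption

/-- The inequality, as left side minus right side. -/
noncomputable def gap (k : Fin 2) (l : ℝ) (w b : Fin 3 → ℝ) : ℝ :=
  l ^ 2 * (pw k w * (phi (oth k) b - phi k b)
      + ((1 - qw k l b) * phi k w + qw k l b * phi (oth k) w) - 1 / 256 * pS w ^ 2)
    - ((∑ s : Fin 6, U k (zz l w b s)) / 6 - phi k b)

lemma uEx_val (k : Fin 2) (z : Fin 3 → Kron.Ex) (x : Fin 4 → ℝ) :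
    (uEx k z).evR x = (uM k : ℝ) * U k (fun i => (z i).evR x) := by
  fin_cases k <;>
    (simp [uEx, polyEx, uLin, uX, uT, uU, uM, U, Kron.Ex.evR, PX, P1, P2, PT, PU]; ring)

lemma evT_base (k : Fin 2) (A B C D : ℝ) :
    evT ((vTerms k).filter fun t => !hasChild t) 1 A B (6 * C) (6 * D)
      = 6 * (uD k : ℝ) * (C + gg k * D + bb k * C ^ 2) := by
  fin_cases k <;>
    (simp [vTerms, vTerms0, vTerms1, hasChild, uD, gg, bb, Term.val]; ring)

lemma evT_rhs (k : Fin 2) (l : ℝ) (w b : Fin 3 → ℝ) :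
    evT (xTerms k) l (6 * pS w) (6 * pC w) (6 * pS b) (6 * pC b)
      = 6 * (uD k : ℝ) * (pw k w * (phi (oth k) b - phi k b)
          + ((1 - qw k l b) * phi k w + qw k l b * phi (oth k) w) - 1 / 256 * pS w ^ 2) := by
  fin_cases k <;>
    (simp [xTerms, xTerms0, xTerms1, uD, oth, pw, qw, phi, gg, bb, Term.val]; ring)

lemma gap_eq (k : Fin 2) (l : ℝ) (w b : Fin 3 → ℝ) (hw : w 0 + w 1 + w 2 = 1)
    (hb : b 0 + b 1 + b 2 = 1) :
    6 * (uD k : ℝ) * gap k l w b
      = l ^ 2 * evT (gTerms k) l (6 * pS w) (6 * pC w) (6 * pS b) (6 * pC b) := by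
  set a := shrink l w with ha
  set x : Fin 4 → ℝ := ![a 0, a 1, b 0, b 1] with hx
  have hid := Kron.zero_of_testZero (id_check k) x
  have ha2 : a 2 = 1 - a 0 - a 1 := by
    simp only [ha, shrink]; linear_combination l * hw
  have hb2 : b 2 = 1 - b 0 - b 1 := by linarith
  have eA : ∀ i, (aEx i).evR x = a i := fun i => by
    fin_cases i <;> simp [aEx, Kron.Ex.evR, hx, ha2] <;> ring
  have eB : ∀ i, (bEx i).evR x = b i := fun i => by
    fin_cases i <;> simp [bEx, Kron.Ex.evR, hx, hb2] <;> ring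
  have ez : ∀ s, (fun i => (zEx s i).evR x) = zz l w b s := fun s => funext fun i => by
    simp [zEx, Kron.Ex.evR, eA, eB, zz, tab6_eq, ha, shrink]; ring
  have eS : ∀ (p : Fin 3 → ℝ) (e : Fin 3 → Kron.Ex), (∀ i, (e i).evR x = p i) →
      (s6Ex e).evR x = 6 * pS p ∧ (c6Ex e).evR x = 6 * pC p := by
    intro p e he
    simp [s6Ex, c6Ex, devEx, Kron.Ex.evR, he, pS, pC, Fin.sum_univ_three]
    constructor <;> ring
  obtain ⟨sa, ca⟩ := eS a aEx eA
  obtain ⟨sb, cb⟩ := eS b bEx eB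
  have ev : ∀ L : List Term, (∀ t ∈ L, t.e = 0) → (sumEx (L.map vtermEx)).evR x
      = evT L 1 (6 * pS a) (6 * pC a) (6 * pS b) (6 * pC b) := by
    intro L
    induction L with
    | nil => intro _; simp [sumEx, Kron.Ex.evR]
    | cons t L ih =>
      intro hL
      simp only [List.map_cons, sumEx, Kron.Ex.evR, evT_cons, vtermEx, sa, ca, sb, cb, Term.val,
        hL t List.mem_cons_self, pow_zero, mul_one, ih fun s hs => hL s (List.mem_cons_of_mem _ hs)]
      ring
  have hM : ((uD k / uM k : ℕ) : ℝ) * (uM k : ℝ) = (uD k : ℝ) := by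
    rw [← Nat.cast_mul]
    exact congrArg _ (Nat.div_mul_cancel (by fin_cases k <;> decide +kernel))
  simp only [idEx, Kron.Ex.evR, evR_sumEx, List.map_map, Function.comp_def, uEx_val, ez,
    ev _ (vTerms_zero k)] at hid
  rw [← List.ofFn_eq_map, List.sum_ofFn, ← Finset.mul_sum] at hid
  rw [ha, pS_shrink, pC_shrink, show (6 : ℝ) * (l ^ 2 * pS w) = l ^ 2 * (6 * pS w) by ring,
    show (6 : ℝ) * (l ^ 3 * pC w) = l ^ 3 * (6 * pC w) by ring,
    evT_shift l _ _ _ _ _ (vTerms_zero k), evT_base] at hid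
  rw [gTerms, evT_append, evT_rhs]
  have hU : (uD k : ℝ) * ∑ s : Fin 6, U k (zz l w b s)
      = ((uD k / uM k : ℕ) : ℝ) * ((uM k : ℝ) * ∑ s : Fin 6, U k (zz l w b s)) := by
    rw [← mul_assoc, hM]
  simp only [gap, phi, Int.cast_natCast, Int.cast_neg, Int.cast_one] at hid ⊢
  linear_combination (-1 : ℝ) * hid - hU

lemma gap_nonneg_open (k : Fin 2) {l : ℝ} (h0 : -1 / 3 < l) (h1 : l ≤ 0) {w b : Fin 3 → ℝ}
    (hw : Simp w) (hb : Simp b) (hw1 : pS w < 1) (hb1 : pS b < 1) : 0 ≤ gap k l w b := by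
  obtain ⟨R, u, κ, h⟩ := exists_param hw hw1
  obtain ⟨R', v, μ, h'⟩ := exists_param hb hb1
  have hd : 0 < 1 + 3 * l := by linarith
  have hl : 3 * (1 + -3 * l / (1 + 3 * l)) * l = -(-3 * l / (1 + 3 * l)) := by
    field_simp; ring
  have e := evT_gTerms_nonneg k h h' (div_nonneg (by linarith) hd.le) hl
  have := gap_eq k l w b hw.2 hb.2
  have hD : (0 : ℝ) < 6 * (uD k : ℝ) := by
    fin_cases k <;> simp [uD]
  exact nonneg_of_mul_nonneg_right (this ▸ mul_nonneg (sq_nonneg l) e) hD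

/-- The pointwise inequality holds. -/
theorem key : Key := by
  intro k l w b h0 h1 hw hb
  suffices 0 ≤ gap k l w b by simp only [gap] at this; linarith
  let f : ℝ → ℝ := fun u => gap k (u * l) (shrink u w) (shrink u b)
  have hc : Continuous f := by
    simp only [f]
    fin_cases k <;>
      (simp only [gap, U, phi, pw, qw, oth, zz, pS, pC, shrink, PX, P1, P2, PT, PU]
       norm_num
       fun_prop)
  have e1 : f 1 = gap k l w b := by
    have : ∀ p : Fin 3 → ℝ, shrink 1 p = p := fun p => funext fun i => by simp [shrink]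
    simp [f, this]
  rw [← e1]
  refine ge_of_tendsto ((hc.tendsto 1).mono_left nhdsWithin_le_nhds)
    (Filter.eventually_of_mem (Ioo_mem_nhdsLT (zero_lt_one' ℝ)) fun u hu => ?_)
  have hu2 : u ^ 2 < 1 := by nlinarith [hu.1, hu.2]
  refine gap_nonneg_open k ?_ (mul_nonpos_of_nonneg_of_nonpos hu.1.le h1)
    (simp_shrink hu.1.le hu.2.le hw) (simp_shrink hu.1.le hu.2.le hb) ?_ ?_
  · nlinarith [hu.1, hu.2]
  · rw [pS_shrink]; nlinarith [pS_le_one hw, pS_nonneg w]
  · rw [pS_shrink]; nlinarith [pS_le_one hb, pS_nonneg b]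

end Vale.Agent.P154.Neg.Large
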