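import Vale.Agent.P154.Neg.Large.Simplex

/-!
# P154: the pointwise inequality `Key` gives a potential on `λ ∈ [-1/3, 0]`

The negative powers of the mass of a product atom are bounded by polynomials, the weights lie in
`[0, 1]`, and summing the pointwise inequality over atom pairs gives the step of the potential.
-/

namespace Vale.Agent.P154.Neg.Large

open Finset Filter Topology

section poly

variable {D : ℝ} (h0 : -2 / 3 ≤ D) (h1 : D ≤ 1 / 3)
include h0 h1

lemma PX_le : PX D ≤ 1 / (1 + D) := by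
  rw [le_div_iff₀ (by linarith)]
  have hR : 504 * D ^ 3 - 40 * D ^ 2 - 35 * D - 3 ≤ 0 := by
    nlinarith [mul_nonneg (sub_nonneg.2 h1) (sq_nonneg (D + 8 / 63)), sq_nonneg (D + 8 / 63),
      mul_nonneg (neg_le_iff_add_nonneg.1 (by linarith : -D ≤ 2 / 3)) (sq_nonneg (D + 8 / 63))]
  have e : PX D * (1 + D) - 1 = D ^ 2 * (504 * D ^ 3 - 40 * D ^ 2 - 35 * D - 3) / 512 := by
    unfold PX; ring
  nlinarith [mul_nonpos_iff.2 (Or.inl ⟨sq_nonneg D, hR⟩)]

omit h1 in
lemma le_P1 : 1 / (1 + D) ≤ P1 D := by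
  rw [div_le_iff₀ (by linarith)]
  have hR : 0 ≤ D ^ 2 * ((1 - 3 * D) ^ 2 * (3 * D + 2)) :=
    mul_nonneg (sq_nonneg _) (mul_nonneg (sq_nonneg _) (by linarith))
  have e : P1 D * (1 + D) - 1 = D ^ 2 * ((1 - 3 * D) ^ 2 * (3 * D + 2)) / 16 := by
    unfold P1; ring
  linarith

lemma le_PT : 1 / (1 + D) ^ 2 ≤ PT D := by
  rw [div_le_iff₀ (by have : 0 < 1 + D := by linarith
                      positivity)]
  have hq : 0 ≤ 68 - 143 * D - 175 * D ^ 2 := by nlinarith
  have hR : 0 ≤ D ^ 2 * ((3 * D + 2) * (1 - 3 * D) * (68 - 143 * D - 175 * D ^ 2)) :=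
    mul_nonneg (sq_nonneg _) (mul_nonneg (mul_nonneg (by linarith) (by linarith)) hq)
  have e : PT D * (1 + D) ^ 2 - 1 =
      D ^ 2 * ((3 * D + 2) * (1 - 3 * D) * (68 - 143 * D - 175 * D ^ 2)) / 144 := by
    unfold PT; ring
  linarith

lemma P2_le : P2 D ≤ 1 / (1 + D) ^ 2 := by
  rw [le_div_iff₀ (by have : 0 < 1 + D := by linarith
                      positivity)]
  have hR : 316 * D ^ 4 + 353 * D ^ 3 - 54 * D ^ 2 - 31 * D - 4 ≤ 0 := by
    nlinarith [mul_nonneg (sub_nonneg.2 h1) (sq_nonneg (D + 17 / 125)),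
      sq_nonneg (D + 17 / 125),
      mul_nonneg (mul_nonneg (sub_nonneg.2 h1) (sub_nonneg.2 h0)) (sq_nonneg (D + 17 / 125))]
  have e : P2 D * (1 + D) ^ 2 - 1 =
      D ^ 2 * (316 * D ^ 4 + 353 * D ^ 3 - 54 * D ^ 2 - 31 * D - 4) / 64 := by
    unfold P2; ring
  nlinarith [mul_nonpos_iff.2 (Or.inl ⟨sq_nonneg D, hR⟩)]

lemma le_PU : 1 / (1 + D) ^ 3 ≤ PU D := by
  rw [div_le_iff₀ (by have : 0 < 1 + D := by linarith
                      positivity)]
  have hq : 0 ≤ 635 - 750 * D - 2889 * D ^ 2 - 1552 * D ^ 3 := by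
    nlinarith [mul_nonneg (sub_nonneg.2 h1) (sub_nonneg.2 h0),
      mul_nonneg (mul_nonneg (sub_nonneg.2 h1) (sub_nonneg.2 h0)) (sub_nonneg.2 h1)]
  have hR : 0 ≤ D ^ 4 * ((3 * D + 2) * (1 - 3 * D) *
      (635 - 750 * D - 2889 * D ^ 2 - 1552 * D ^ 3)) :=
    mul_nonneg (by positivity) (mul_nonneg (mul_nonneg (by linarith) (by linarith)) hq)
  have e : PU D * (1 + D) ^ 3 - 1 = D ^ 4 * ((3 * D + 2) * (1 - 3 * D) *
      (635 - 750 * D - 2889 * D ^ 2 - 1552 * D ^ 3)) / 192 := by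
    unfold PU; ring
  linarith

end poly

/-- The polynomial bound of the functional of a product atom. -/
lemma mul_phi_le_U (k : Fin 2) {z : Fin 3 → ℝ} (hz : ∀ i, 0 ≤ z i)
    (h0 : 1 / 3 ≤ mass z) (h1 : mass z ≤ 4 / 3) : mass z * phi k (post z) ≤ U k z := by
  have hd : 0 < mass z := by linarith
  have hD0 : -2 / 3 ≤ mass z - 1 := by linarith
  have hD1 : mass z - 1 ≤ 1 / 3 := by linarith
  have px := PX_le hD0 hD1
  have p1 := le_P1 hD0
  have pt := le_PT hD0 hD1
  have p2 := P2_le hD0 hD1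
  have pu := le_PU hD0 hD1
  rw [add_sub_cancel] at px p1 pt p2 pu
  have e2n : 0 ≤ esy2 z := esy2_nonneg hz
  have e3n : 0 ≤ esy3 z := esy3_nonneg hz
  have eS : mass z * pS (post z) = mass z - 3 * esy2 z * (1 / mass z) := by
    simp only [pS, post, Fin.sum_univ_three]
    field_simp
    simp only [mass, esy2]
    ring
  have eC : mass z * pC (post z) =
      mass z - 9 / 2 * esy2 z * (1 / mass z) + 27 / 2 * esy3 z * (1 / mass z ^ 2) := by
    simp only [pC, post, Fin.sum_univ_three]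
    field_simp
    simp only [mass, esy2, esy3]
    ring
  have eQ : mass z * pS (post z) ^ 2 = (mass z ^ 2 - 3 * esy2 z) ^ 2 * (1 / mass z ^ 3) := by
    rw [show mass z * pS (post z) ^ 2 = (mass z * pS (post z)) ^ 2 / mass z by field_simp, eS]
    field_simp
  have m1 := mul_le_mul_of_nonneg_left px e2n
  have m2 := mul_le_mul_of_nonneg_left p1 e2n
  have m3 := mul_le_mul_of_nonneg_left pt e3n
  have m4 := mul_le_mul_of_nonneg_left p2 e3n
  have m5 := mul_le_mul_of_nonneg_left pu (sq_nonneg (mass z ^ 2 - 3 * esy2 z))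
  have eU : U k z = if k = 0 then
      mass z - 3 * esy2 z * PX (mass z - 1)
        + -3 / 10 * (mass z - 9 / 2 * esy2 z * P1 (mass z - 1)
          + 27 / 2 * esy3 z * P2 (mass z - 1))
        + 3 / 8 * (mass z ^ 2 - 3 * esy2 z) ^ 2 * PU (mass z - 1)
    else
      mass z - 3 * esy2 z * PX (mass z - 1)
        + 1 / 10 * (mass z - 9 / 2 * esy2 z * PX (mass z - 1)
          + 27 / 2 * esy3 z * PT (mass z - 1))
        + 1 / 16 * (mass z ^ 2 - 3 * esy2 z) ^ 2 * PU (mass z - 1) := rfl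
  rw [eU, phi, mul_add, mul_add, mul_left_comm, mul_left_comm (mass z) (bb k), eS, eC, eQ]
  simp only [one_div] at m1 m2 m3 m4 m5 ⊢
  fin_cases k <;> simp [gg, bb] <;> linarith

/-! ### Facts on the simplex -/

lemma simp_post {x : Fin 3 → ℝ} (hx : ∀ i, 0 ≤ x i) (hm : 0 < mass x) : Simp (post x) := by
  refine ⟨fun i => div_nonneg (hx i) hm.le, ?_⟩
  simp only [post, ← add_div]
  exact div_self hm.ne'

section simplex

variable {p : Fin 3 → ℝ} (hp : Simp p)
include hp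

lemma pS_eq : pS p = 1 - 3 * esy2 p := by
  have e : p 2 = 1 - p 0 - p 1 := by linarith [hp.2]
  simp only [pS, esy2, Fin.sum_univ_three, e]; ring

lemma pC_eq : pC p = 1 - 9 / 2 * esy2 p + 27 / 2 * esy3 p := by
  have e : p 2 = 1 - p 0 - p 1 := by linarith [hp.2]
  simp only [pC, esy2, esy3, Fin.sum_univ_three, e]; ring

lemma abs_pC_le : |pC p| ≤ pS p := by
  refine abs_le_of_sq_le_sq ((pC_sq_le hp).trans ?_) (pS_nonneg p)
  nlinarith [mul_nonneg (sq_nonneg (pS p)) (sub_nonneg.2 (pS_le_one hp))]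

lemma pw_mem (k : Fin 2) {l : ℝ} (h0 : -1 / 3 ≤ l) (h1 : l ≤ 0) :
    0 ≤ l ^ 2 * pw k p ∧ l ^ 2 * pw k p ≤ 1 := by
  obtain ⟨c1, c2⟩ := abs_le.1 (abs_pC_le hp)
  have s0 := pS_nonneg p
  have s1 := pS_le_one hp
  have s2 := pC_ge hp
  have hl : l ^ 2 ≤ 1 / 9 := by nlinarith
  have hw : 0 ≤ pw k p ∧ pw k p ≤ 9 := by
    fin_cases k <;> simp [pw] <;> constructor <;> nlinarith
  exact ⟨mul_nonneg (sq_nonneg l) hw.1, by nlinarith [mul_le_mul_of_nonneg_right hl hw.1]⟩

lemma qw_mem (k : Fin 2) {l : ℝ} (h0 : -1 / 3 ≤ l) (h1 : l ≤ 0) :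
    0 ≤ qw k l p ∧ qw k l p ≤ 1 := by
  obtain ⟨c1, c2⟩ := abs_le.1 (abs_pC_le hp)
  have s0 := pS_nonneg p
  have s1 := pS_le_one hp
  have hupper : -9 / 16 * pS p - 5 / 8 * pC p + pS p ^ 2 ≤ 0 := by
    rcases le_total (pS p) (1 / 4) with h | h
    · have hb : 0 ≤ pS p * (9 / 16 - pS p) := mul_nonneg s0 (by linarith)
      have : |5 / 8 * pC p| ≤ pS p * (9 / 16 - pS p) := by
        refine abs_le_of_sq_le_sq ?_ hb
        calc (5 / 8 * pC p) ^ 2 ≤ 25 / 64 * pS p ^ 3 := by nlinarith [pC_sq_le hp]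
          _ = pS p ^ 2 * (25 / 64 * pS p) := by ring
          _ ≤ pS p ^ 2 * (9 / 16 - pS p) ^ 2 :=
              mul_le_mul_of_nonneg_left (by nlinarith) (sq_nonneg _)
          _ = _ := by ring
      linarith [(abs_le.1 this).1]
    · nlinarith [pC_ge hp, mul_nonneg (sub_nonneg.2 h) (by linarith : (0 : ℝ) ≤ 5 / 4 - pS p)]
  fin_cases k <;> simp [qw] <;> constructor <;> nlinarith [sq_nonneg (pS p - 1 / 2)]

lemma phi_avg : 9 / 5 * pS p ≤ phi 0 p + phi 1 p := by
  obtain ⟨c1, c2⟩ := abs_le.1 (abs_pC_le hp)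
  simp only [phi, gg, bb]
  norm_num
  nlinarith [sq_nonneg (pS p)]

lemma phi_le_two (k : Fin 2) : phi k p ≤ 2 := by
  obtain ⟨c1, c2⟩ := abs_le.1 (abs_pC_le hp)
  have s0 := pS_nonneg p
  have s1 := pS_le_one hp
  fin_cases k <;> simp [phi, gg, bb] <;> nlinarith [pC_ge hp]

end simplex

/-! ### The step -/

variable {A B : Type} [Fintype A] [Fintype B]

/-- A third of the mass. -/
noncomputable def wt (x : Fin 3 → ℝ) : ℝ := mass x / 3

lemma wt_nonneg {x : Fin 3 → ℝ} (hx : ∀ i, 0 ≤ x i) : 0 ≤ wt x :=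
  div_nonneg (mass_nonneg hx) (by norm_num)

lemma sum_wt {L : A → Fin 3 → ℝ} (hL : Good L) : ∑ o, wt (L o) = 1 := by
  simp only [wt, ← Finset.sum_div, hL.sum_mass]; norm_num

/-- A bound that holds at every posterior holds atom by atom. -/
lemma wt_le {x : Fin 3 → ℝ} (hx : ∀ i, 0 ≤ x i) {g h : (Fin 3 → ℝ) → ℝ}
    (hgh : ∀ p, Simp p → g p ≤ h p) : wt x * g (post x) ≤ wt x * h (post x) := by
  rcases (mass_nonneg hx).eq_or_lt with e | e
  · simp [wt, ← e]
  · exact mul_le_mul_of_nonneg_left (hgh _ (simp_post hx e)) (wt_nonneg hx)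

lemma chX_eq_sum {L : A → Fin 3 → ℝ} (hL : Good L) :
    chX L = ∑ o, wt (L o) * pS (post (L o)) := by
  have h : ∀ o, wt (L o) * pS (post (L o)) = wt (L o) - q2 (L o) := by
    intro o
    rcases (mass_nonneg (hL.nonneg o)).eq_or_lt with e | e
    · simp [wt, q2, ← e]
    · rw [pS_eq (simp_post (hL.nonneg o) e)]
      simp only [wt, q2, post, esy2]
      field_simp
  simp only [h, Finset.sum_sub_distrib, sum_wt hL, chX]

lemma fL_smul (k : Fin 2) (c : ℝ) (x : Fin 3 → ℝ) :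
    fL k (fun i => c * x i) = c * fL k x := by
  rcases eq_or_ne c 0 with rfl | h
  · simp [fL, mass]
  · have : post (fun i => c * x i) = post x := by
      funext i; simp only [post, mass_smul]; rw [mul_div_mul_left _ _ h]
    rw [fL, fL, this, mass_smul]; ring

lemma mass_zz_mem {l : ℝ} (h0 : -1 / 3 ≤ l) (h1 : l ≤ 0) {w b : Fin 3 → ℝ} (hw : Simp w)
    (hb : Simp b) (s : Fin 6) :
    (∀ i, 0 ≤ zz l w b s i) ∧ 1 / 3 ≤ mass (zz l w b s) ∧ mass (zz l w b s) ≤ 4 / 3 := by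
  have hw1 : ∀ i, w i ≤ 1 := by
    intro i
    have := hw.1 0; have := hw.1 1; have := hw.1 2; have := hw.2
    fin_cases i <;> simp <;> linarith
  have hc : ∀ i, 1 / 3 * b (perm6 s i) ≤ zz l w b s i ∧ zz l w b s i ≤ 4 / 3 * b (perm6 s i) := by
    intro i
    have := mul_nonneg (neg_nonneg.2 h1) (hw.1 i)
    have := mul_nonneg (neg_nonneg.2 h1) (sub_nonneg.2 (hw1 i))
    refine ⟨mul_le_mul_of_nonneg_right ?_ (hb.1 _), mul_le_mul_of_nonneg_right ?_ (hb.1 _)⟩ <;>
      nlinarith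
  have hs : mass (fun i => b (perm6 s i)) = 1 := by rw [mass_perm]; exact hb.2
  refine ⟨fun i => le_trans (mul_nonneg (by norm_num) (hb.1 _)) (hc i).1, ?_, ?_⟩
  · simp only [mass] at hs ⊢
    linarith [(hc 0).1, (hc 1).1, (hc 2).1]
  · simp only [mass] at hs ⊢
    linarith [(hc 0).2, (hc 1).2, (hc 2).2]

/-- The inequality for one pair of atoms. -/
lemma orb_fL_le (hk : Key) (k : Fin 2) {l : ℝ} (h0 : -1 / 3 ≤ l) (h1 : l ≤ 0) {x y : Fin 3 → ℝ}
    (hx : ∀ i, 0 ≤ x i) (hy : ∀ i, 0 ≤ y i) :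
    orb (fL k) (edge l x) y ≤ 6 * (wt x * wt y * (phi k (post y)
      + l ^ 2 * (pw k (post x) * (phi (oth k) (post y) - phi k (post y))
        + ((1 - qw k l (post y)) * phi k (post x) + qw k l (post y) * phi (oth k) (post x))
        - 1 / 256 * pS (post x) ^ 2))) := by
  rcases (mass_nonneg hx).eq_or_lt with e | ex
  · have hx0 := eq_zero_of_mass hx e.symm
    simp [wt, orb, edge, fL, mass, hx0]
  rcases (mass_nonneg hy).eq_or_lt with e | ey
  · have hy0 := eq_zero_of_mass hy e.symm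
    simp [wt, orb, fL, mass, hy0]
  set w := post x with hwdef
  set b := post y with hbdef
  have hw : Simp w := simp_post hx ex
  have hb : Simp b := simp_post hy ey
  have hterm : ∀ s, fL k (fun i => edge l x i * y (perm6 s i)) ≤
      mass x * mass y / 9 * U k (zz l w b s) := by
    intro s
    have e : (fun i => edge l x i * y (perm6 s i)) =
        fun i => mass x * mass y / 3 * zz l w b s i := by
      funext i
      simp only [zz, edge, hwdef, hbdef, post]
      field_simp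
      ring
    obtain ⟨z0, z1, z2⟩ := mass_zz_mem h0 h1 hw hb s
    have := mul_le_mul_of_nonneg_left (mul_phi_le_U k z0 z1 z2)
      (show (0 : ℝ) ≤ mass x * mass y / 9 by positivity)
    rw [e, fL_smul, fL]
    linarith
  refine (Finset.sum_le_sum fun s _ => hterm s).trans ?_
  rw [← Finset.mul_sum]
  have := mul_le_mul_of_nonneg_left (hk k l w b h0 h1 hw hb)
    (show (0 : ℝ) ≤ 2 / 3 * mass x * mass y by positivity)
  simp only [wt]
  linarith

lemma sum_phi_le (f : Fin 2 → ℝ) (k : Fin 2) {t : ℝ} (ht0 : 0 ≤ t) (ht1 : t ≤ 1) :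
    f k + t * (f (oth k) - f k) ≤ max (f 0) (f 1) := by
  have hm : f k ≤ max (f 0) (f 1) ∧ f (oth k) ≤ max (f 0) (f 1) := by
    fin_cases k <;> simp [oth]
  nlinarith [mul_le_mul_of_nonneg_left hm.2 ht0,
    mul_le_mul_of_nonneg_left hm.1 (sub_nonneg.2 ht1)]

lemma step_le (hk : Key) (k : Fin 2) {l : ℝ} (h0 : -1 / 3 ≤ l) (h1 : l ≤ 0)
    {M : A → Fin 3 → ℝ} {L : B → Fin 3 → ℝ} (hM : Good M) (hL : Good L) :
    ∑ q, fL k (prodL (fun o => edge l (M o)) L q) ≤
      potZ fL L + l ^ 2 * (potZ fL M - 1 / 256 * chX M ^ 2) := by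
  have hsum := orb_sum (L := fun o => edge l (M o)) hL (fL k)
  have hle := Finset.sum_le_sum (s := univ) fun a _ => Finset.sum_le_sum (s := univ) fun b _ =>
    orb_fL_le hk k h0 h1 (hM.nonneg a) (hL.nonneg b)
  rw [hsum] at hle
  simp only [← Finset.mul_sum (a := (6 : ℝ))] at hle
  set P := ∑ a, wt (M a) * (l ^ 2 * pw k (post (M a)))
  set Q := ∑ b, wt (L b) * qw k l (post (L b))
  have hP : 0 ≤ P ∧ P ≤ 1 := by
    constructor
    · calc (0 : ℝ) = ∑ a, wt (M a) * (fun _ => (0 : ℝ)) (post (M a)) := by simp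
        _ ≤ _ := Finset.sum_le_sum fun a _ => wt_le (hM.nonneg a)
            (g := fun _ => 0) fun p hp => (pw_mem hp k h0 h1).1
    · calc P ≤ ∑ a, wt (M a) * (fun _ => (1 : ℝ)) (post (M a)) :=
            Finset.sum_le_sum fun a _ => wt_le (hM.nonneg a)
              (h := fun _ => 1) fun p hp => (pw_mem hp k h0 h1).2
        _ = 1 := by simp [sum_wt hM]
  have hQ : 0 ≤ Q ∧ Q ≤ 1 := by
    constructor
    · calc (0 : ℝ) = ∑ b, wt (L b) * (fun _ => (0 : ℝ)) (post (L b)) := by simp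
        _ ≤ _ := Finset.sum_le_sum fun b _ => wt_le (hL.nonneg b)
            (g := fun _ => 0) fun p hp => (qw_mem hp k h0 h1).1
    · calc Q ≤ ∑ b, wt (L b) * (fun _ => (1 : ℝ)) (post (L b)) :=
            Finset.sum_le_sum fun b _ => wt_le (hL.nonneg b)
              (h := fun _ => 1) fun p hp => (qw_mem hp k h0 h1).2
        _ = 1 := by simp [sum_wt hL]
  set X2 := ∑ a, wt (M a) * pS (post (M a)) ^ 2
  have hX : chX M ^ 2 ≤ X2 := by
    have h := Finset.sum_nonneg (s := univ) fun a _ =>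
      mul_nonneg (wt_nonneg (hM.nonneg a)) (sq_nonneg (pS (post (M a)) - chX M))
    have e : ∀ a, wt (M a) * (pS (post (M a)) - chX M) ^ 2 = wt (M a) * pS (post (M a)) ^ 2
        - 2 * chX M * (wt (M a) * pS (post (M a))) + chX M ^ 2 * wt (M a) := fun a => by ring
    simp only [e, Finset.sum_add_distrib, Finset.sum_sub_distrib, ← Finset.mul_sum, sum_wt hM,
      ← chX_eq_sum hM] at h
    linarith
  have hsplit : ∑ a, ∑ b, wt (M a) * wt (L b) * (phi k (post (L b))
      + l ^ 2 * (pw k (post (M a)) * (phi (oth k) (post (L b)) - phi k (post (L b)))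
        + ((1 - qw k l (post (L b))) * phi k (post (M a))
          + qw k l (post (L b)) * phi (oth k) (post (M a)))
        - 1 / 256 * pS (post (M a)) ^ 2))
      = (∑ b, fL k (L b)) + P * ((∑ b, fL (oth k) (L b)) - ∑ b, fL k (L b))
        + l ^ 2 * ((∑ a, fL k (M a)) + Q * ((∑ a, fL (oth k) (M a)) - ∑ a, fL k (M a))
          - 1 / 256 * X2) := by
    have e : ∀ a b, wt (M a) * wt (L b) * (phi k (post (L b))
        + l ^ 2 * (pw k (post (M a)) * (phi (oth k) (post (L b)) - phi k (post (L b)))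
          + ((1 - qw k l (post (L b))) * phi k (post (M a))
            + qw k l (post (L b)) * phi (oth k) (post (M a)))
          - 1 / 256 * pS (post (M a)) ^ 2))
        = wt (M a) * fL k (L b)
          + (wt (M a) * (l ^ 2 * pw k (post (M a)))) * (fL (oth k) (L b) - fL k (L b))
          + l ^ 2 * (wt (L b) * fL k (M a)
            + (wt (L b) * qw k l (post (L b))) * (fL (oth k) (M a) - fL k (M a))
            - 1 / 256 * (wt (L b) * (wt (M a) * pS (post (M a)) ^ 2))) := by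
      intro a b; simp only [fL, wt]; ring
    simp only [e, Finset.sum_add_distrib, Finset.sum_sub_distrib, ← Finset.mul_sum,
      ← Finset.sum_mul, sum_wt hL, sum_wt hM, P, Q, X2]
    ring
  rw [hsplit] at hle
  have hA := sum_phi_le (fun j => ∑ b, fL j (L b)) k hP.1 hP.2
  have hB := sum_phi_le (fun j => ∑ a, fL j (M a)) k hQ.1 hQ.2
  have := mul_le_mul_of_nonneg_left
    (show (∑ a, fL k (M a)) + Q * ((∑ a, fL (oth k) (M a)) - ∑ a, fL k (M a)) - 1 / 256 * X2 ≤
      potZ fL M - 1 / 256 * chX M ^ 2 by unfold potZ; linarith) (sq_nonneg l)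
  unfold potZ at *
  linarith

/-- The potential for `λ ∈ [-1/3, 0]`. -/
theorem potCert (hk : Key) {l : ℝ} (h0 : -1 / 3 ≤ l) (h1 : l ≤ 0) : PotCert l fL where
  lower := ⟨9 / 10, by norm_num, fun {A} _ L hL => by
    have h : ∑ o, wt (L o) * (9 / 5 * pS (post (L o))) ≤
        ∑ o, wt (L o) * (phi 0 (post (L o)) + phi 1 (post (L o))) :=
      Finset.sum_le_sum fun o _ =>
        wt_le (hL.nonneg o) (g := fun p => 9 / 5 * pS p) (h := fun p => phi 0 p + phi 1 p)
          fun p hp => phi_avg hp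
    simp only [mul_left_comm (wt _) (9 / 5 : ℝ), ← Finset.mul_sum, ← chX_eq_sum hL, mul_add,
      Finset.sum_add_distrib] at h
    have a0 : ∑ o, fL 0 (L o) ≤ potZ fL L := le_max_left _ _
    have a1 : ∑ o, fL 1 (L o) ≤ potZ fL L := le_max_right _ _
    simp only [fL] at a0 a1
    simp only [wt] at h
    linarith⟩
  upper := ⟨2, fun {A} _ L hL => by
    have h : ∀ k, ∑ o, fL k (L o) ≤ 2 := fun k => by
      calc ∑ o, fL k (L o) = ∑ o, wt (L o) * phi k (post (L o)) := rfl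
        _ ≤ ∑ o, wt (L o) * (fun _ => (2 : ℝ)) (post (L o)) :=
            Finset.sum_le_sum fun o _ => wt_le (hL.nonneg o) (h := fun _ => 2)
              fun p hp => phi_le_two hp k
        _ = 2 := by simp [← Finset.sum_mul, sum_wt hL]
    exact max_le (h 0) (h 1)⟩
  unit := by
    norm_num [potZ, fL, phi, pS, pC, post, mass, Fin.sum_univ_three]
  step := ⟨1 / 256, by norm_num, fun {A B} _ _ M L hM hL =>
    max_le (step_le hk 0 h0 h1 hM hL) (step_le hk 1 h0 h1 hM hL)⟩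

/-- `Key` gives nonreconstruction on regular trees for `λ ∈ [-1/3, 0]`, `d λ² ≤ 1`. -/
theorem large_reg (hk : Key) {l : ℝ} (h0 : -1 / 3 ≤ l) (h1 : l ≤ 0) {d : ℕ}
    (hd : (d : ℝ) * l ^ 2 ≤ 1) : Tendsto (aReg l d) atTop (𝓝 0) :=
  reg_tendsto_of_pot (by linarith) (by linarith) (potCert hk h0 h1) hd

/-- `Key` gives nonreconstruction on Poisson trees for `λ ∈ [-1/3, 0]`, `d λ² ≤ 1`. -/
theorem large_gw (hk : Key) {l : ℝ} (h0 : -1 / 3 ≤ l) (h1 : l ≤ 0) {d : ℝ} (hd0 : 0 < d)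
    (hd : d * l ^ 2 ≤ 1) : Tendsto (aGW l d) atTop (𝓝 0) :=
  gw_tendsto_of_pot (by linarith) (by linarith) (potCert hk h0 h1) hd0 hd

end Vale.Agent.P154.Neg.Large
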