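import Vale.Agent.P154.GaltonWatson
import Vale.Agent.P154.Neg.Large.KeyProof
import Vale.Agent.P154.Neg.Large.Step
import Vale.Agent.P154.Neg.Recon

/-!
# P154: exact threshold of the three-state channel with edge at least `-1/3`
-/

namespace Vale.Agent.P154.Neg.Large

open Filter Topology

/-- Nonreconstruction on regular trees up to the Kesten-Stigum bound, edge at least `-1/3`. -/
theorem reg_nonrec {d : ℕ} (hd : 2 ≤ d) {l : ℝ} (hl : l ∈ Set.Icc (-1 / 2 : ℝ) 1)
    (hc : 9 ≤ d ∨ -1 / 3 ≤ l) (h : (d : ℝ) * l ^ 2 ≤ 1) : Tendsto (aReg l d) atTop (𝓝 0) := by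
  rcases le_total 0 l with hp | hn
  · exact P154.reg_nonreconstruction hp hl.2 hd h
  · have h3 : -1 / 3 ≤ l := by
      rcases hc with h9 | h3
      · have : (9 : ℝ) ≤ (d : ℝ) := by exact_mod_cast h9
        nlinarith [mul_le_mul_of_nonneg_right this (sq_nonneg l)]
      · exact h3
    exact large_reg key h3 hn h

/-- Nonreconstruction on Poisson trees up to the Kesten-Stigum bound, edge at least `-1/3`. -/
theorem gw_nonrec {d : ℝ} (hd : 0 < d) {l : ℝ} (hl : l ∈ Set.Icc (-1 / 2 : ℝ) 1)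
    (hc : 9 ≤ d ∨ -1 / 3 ≤ l) (h : d * l ^ 2 ≤ 1) : Tendsto (aGW l d) atTop (𝓝 0) := by
  rcases le_total 0 l with hp | hn
  · exact P154.gw_nonreconstruction hd hp hl.2 h
  · have h3 : -1 / 3 ≤ l := by
      rcases hc with h9 | h3
      · nlinarith [mul_le_mul_of_nonneg_right h9 (sq_nonneg l)]
      · exact h3
    exact large_gw key h3 hn hd h

end Vale.Agent.P154.Neg.Large
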