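import Vale.Agent.P154.Neg.Large.Terms

/-!
# P154: kernel checks of the small-edge certificate
-/

namespace Vale.Agent.P154.Neg.Large

theorem id_check : ∀ k, Kron.testZero (idEx k) (fun _ => 11) 92 = true := by decide +kernel

theorem piece_check0 : ∀ R S p q,
    Kron.testNN (pieceEx 0 R S p q) ![9, 11, 11, 1] 11 104 = true := by decide +kernel

theorem piece_check1 : ∀ R S p q,
    Kron.testNN (pieceEx 1 R S p q) ![9, 11, 11, 1] 11 104 = true := by decide +kernel

end Vale.Agent.P154.Neg.Large
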