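import Vale.Agent.P154.Neg.Pot

/-!
# P154: definitions for the potential used when the edge is at most a third in absolute value

Two functionals of the posterior, the polynomial bounds of the negative powers of the mass ratio
that linearise them on a product atom, and the weights of the convex combinations.
-/

namespace Vale.Agent.P154.Neg.Large

open Finset

/-- Normalised second moment of a probability vector. -/
noncomputable def pS (p : Fin 3 → ℝ) : ℝ := 3 / 2 * ∑ i, (p i - 1 / 3) ^ 2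

/-- Normalised third moment of a probability vector. -/
noncomputable def pC (p : Fin 3 → ℝ) : ℝ := 9 / 2 * ∑ i, (p i - 1 / 3) ^ 3

/-- Coefficient of the third moment. -/
noncomputable def gg (k : Fin 2) : ℝ := if k = 0 then -3 / 10 else 1 / 10

/-- Coefficient of the squared second moment. -/
noncomputable def bb (k : Fin 2) : ℝ := if k = 0 then 3 / 8 else 1 / 16

/-- The two functionals of the posterior. -/
noncomputable def phi (k : Fin 2) (p : Fin 3 → ℝ) : ℝ :=
  pS p + gg k * pC p + bb k * pS p ^ 2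

/-- The posterior of an atom. -/
noncomputable def post (x : Fin 3 → ℝ) : Fin 3 → ℝ := fun i => x i / mass x

/-- The two functionals of an atom. -/
noncomputable def fL (k : Fin 2) (x : Fin 3 → ℝ) : ℝ := mass x / 3 * phi k (post x)

/-- Lower bound for `1/(1+D)`. -/
noncomputable def PX (D : ℝ) : ℝ :=
  1 - D + 509 / 512 * D ^ 2 - 17 / 16 * D ^ 3 + 63 / 64 * D ^ 4

/-- Upper bound for `1/(1+D)`. -/
noncomputable def P1 (D : ℝ) : ℝ :=
  1 - D + 9 / 8 * D ^ 2 - 27 / 16 * D ^ 3 + 27 / 16 * D ^ 4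

/-- Upper bound for `1/(1+D)^2`. -/
noncomputable def PT (D : ℝ) : ℝ :=
  1 - 2 * D + 71 / 18 * D ^ 2 - 223 / 24 * D ^ 3 + 175 / 16 * D ^ 4

/-- Lower bound for `1/(1+D)^2`. -/
noncomputable def P2 (D : ℝ) : ℝ :=
  1 - 2 * D + 47 / 16 * D ^ 2 - 279 / 64 * D ^ 3 + 79 / 16 * D ^ 4

/-- Upper bound for `1/(1+D)^3`. -/
noncomputable def PU (D : ℝ) : ℝ :=
  1 - 3 * D + 6 * D ^ 2 - 10 * D ^ 3 + 2075 / 96 * D ^ 4 - 3749 / 64 * D ^ 5 + 291 / 4 * D ^ 6

/-- Polynomial upper bound for `d φ (z/d)`, `d = ∑ z`. -/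
noncomputable def U (k : Fin 2) (z : Fin 3 → ℝ) : ℝ :=
  let d := z 0 + z 1 + z 2
  let e2 := z 0 * z 1 + z 0 * z 2 + z 1 * z 2
  let e3 := z 0 * z 1 * z 2
  if k = 0 then
    d - 3 * e2 * PX (d - 1)
      + -3 / 10 * (d - 9 / 2 * e2 * P1 (d - 1) + 27 / 2 * e3 * P2 (d - 1))
      + 3 / 8 * (d ^ 2 - 3 * e2) ^ 2 * PU (d - 1)
  else
    d - 3 * e2 * PX (d - 1)
      + 1 / 10 * (d - 9 / 2 * e2 * PX (d - 1) + 27 / 2 * e3 * PT (d - 1))
      + 1 / 16 * (d ^ 2 - 3 * e2) ^ 2 * PU (d - 1)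

/-- The other functional. -/
def oth (k : Fin 2) : Fin 2 := if k = 0 then 1 else 0

/-- Weight of the other functional of the rest of the root, up to `λ²`. -/
noncomputable def pw (k : Fin 2) (w : Fin 3 → ℝ) : ℝ :=
  if k = 0 then pS w - pC w else 6 * pS w + pC w / 2 + pS w ^ 2

/-- Weight of the other functional of the child. -/
noncomputable def qw (k : Fin 2) (l : ℝ) (b : Fin 3 → ℝ) : ℝ :=
  if k = 0 then 3 / 4 * (1 - l) + (-9 / 16 * pS b - 5 / 8 * pC b + pS b ^ 2)
  else 1 / 4 * (1 - l) + (-pS b + pS b ^ 2)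

/-- A point of the probability simplex. -/
def Simp (p : Fin 3 → ℝ) : Prop := (∀ i, 0 ≤ p i) ∧ p 0 + p 1 + p 2 = 1

/-- Product of the child posterior after the edge with a relabelled posterior of the rest. -/
noncomputable def zz (l : ℝ) (w b : Fin 3 → ℝ) (s : Fin 6) : Fin 3 → ℝ :=
  fun i => 3 * (1 / 3 + l * (w i - 1 / 3)) * b (perm6 s i)

/-- The certified pointwise inequality. -/
def Key : Prop :=
  ∀ (k : Fin 2) (l : ℝ) (w b : Fin 3 → ℝ), -1 / 3 ≤ l → l ≤ 0 → Simp w → Simp b →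
    (∑ s : Fin 6, U k (zz l w b s)) / 6 - phi k b
      ≤ l ^ 2 * (pw k w * (phi (oth k) b - phi k b)
          + ((1 - qw k l b) * phi k w + qw k l b * phi (oth k) w) - 1 / 256 * pS w ^ 2)

end Vale.Agent.P154.Neg.Large
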