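import Mathlib

/-!
# Kronecker-packing checker for integer polynomial expressions in four variables

`testNN` certifies nonnegative coefficients (hence nonnegativity on the orthant), `testZero` an
identity. Both evaluate once at a packed point and are meant for `decide +kernel`.
-/

namespace Vale.Agent.P154.Neg.Large.Kron

open MvPolynomial Finset

/-- Polynomial expressions in four variables with integer coefficients. -/
inductive Ex : Type
  | var (i : Fin 4)
  | cst (n : ℤ)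
  | add (p q : Ex)
  | mul (p q : Ex)
  | pow (p : Ex) (n : ℕ)

/-- Value over the reals. -/
noncomputable def Ex.evR : Ex → (Fin 4 → ℝ) → ℝ
  | .var i, x => x i
  | .cst n, _ => n
  | .add p q, x => p.evR x + q.evR x
  | .mul p q, x => p.evR x * q.evR x
  | .pow p n, x => p.evR x ^ n

/-- Power of an integer through natural numbers. -/
def powI : ℤ → ℕ → ℤ
  | .ofNat a, n => Int.ofNat (a ^ n)
  | .negSucc a, n => if n % 2 = 0 then Int.ofNat ((a + 1) ^ n) else -Int.ofNat ((a + 1) ^ n)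

lemma powI_eq : ∀ (v : ℤ) (n : ℕ), powI v n = v ^ n
  | .ofNat a, n => by simp [powI]
  | .negSucc a, n => by
    rcases Nat.even_or_odd n with h | h
    · rw [powI, if_pos (Nat.even_iff.1 h), Int.negSucc_eq, h.neg_pow]; simp
    · rw [powI, if_neg (by rw [Nat.odd_iff.1 h]; decide), Int.negSucc_eq, h.neg_pow]; simp

/-- Value at an integer point. -/
def Ex.evZ : Ex → ℤ → ℤ → ℤ → ℤ → ℤ
  | .var ⟨0, _⟩, a, _, _, _ => a
  | .var ⟨1, _⟩, _, b, _, _ => b
  | .var ⟨2, _⟩, _, _, c, _ => c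
  | .var _, _, _, _, d => d
  | .cst n, _, _, _, _ => n
  | .add p q, a, b, c, d => p.evZ a b c d + q.evZ a b c d
  | .mul p q, a, b, c, d => p.evZ a b c d * q.evZ a b c d
  | .pow p n, a, b, c, d => powI (p.evZ a b c d) n

/-- A bound on the absolute values of all coefficients. -/
def Ex.nrm : Ex → ℕ
  | .var _ => 1
  | .cst n => n.natAbs
  | .add p q => p.nrm + q.nrm
  | .mul p q => p.nrm * q.nrm
  | .pow p n => p.nrm ^ n

/-- An upper bound on the degree in one variable. -/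
def Ex.degB : Ex → Fin 4 → ℕ
  | .var j, i => if i.val == j.val then 1 else 0
  | .cst _, _ => 0
  | .add p q, i => max (p.degB i) (q.degB i)
  | .mul p q, i => p.degB i + q.degB i
  | .pow p n, i => n * p.degB i

/-- The polynomial of an expression. -/
noncomputable def Ex.poly : Ex → MvPolynomial (Fin 4) ℤ
  | .var i => X i
  | .cst n => C n
  | .add p q => p.poly + q.poly
  | .mul p q => p.poly * q.poly
  | .pow p n => p.poly ^ n

lemma Ex.aeval_poly (e : Ex) (x : Fin 4 → ℝ) : aeval x e.poly = e.evR x := by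
  induction e <;> simp_all [Ex.poly, Ex.evR]

lemma Ex.eval_poly (e : Ex) (a b c d : ℤ) : eval ![a, b, c, d] e.poly = e.evZ a b c d := by
  induction e with
  | var i => fin_cases i <;> simp [Ex.poly] <;> rfl
  | cst n => simp [Ex.poly, Ex.evZ]
  | add p q ihp ihq => simp [Ex.poly, Ex.evZ, ihp, ihq]
  | mul p q ihp ihq => simp [Ex.poly, Ex.evZ, ihp, ihq]
  | pow p n ih => simp [Ex.poly, Ex.evZ, ih, powI_eq]

lemma Ex.degreeOf_le (e : Ex) (i : Fin 4) : degreeOf i e.poly ≤ e.degB i := by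
  induction e with
  | var j =>
    rw [Ex.poly, degreeOf_X, Ex.degB]
    by_cases h : i = j
    · simp [h]
    · simp [h]
  | cst n => rw [Ex.poly, degreeOf_C]; exact Nat.zero_le _
  | add p q ihp ihq => exact (degreeOf_add_le i _ _).trans (max_le_max ihp ihq)
  | mul p q ihp ihq => exact (degreeOf_mul_le i _ _).trans (Nat.add_le_add ihp ihq)
  | pow p n ih => exact (degreeOf_pow_le i _ n).trans (Nat.mul_le_mul_left n ih)

/-- Coefficientwise domination. -/
def Dominates (A P : MvPolynomial (Fin 4) ℤ) : Prop := ∀ m, |coeff m P| ≤ coeff m A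

lemma Dominates.mul {A P B Q : MvPolynomial (Fin 4) ℤ} (h1 : Dominates A P)
    (h2 : Dominates B Q) : Dominates (A * B) (P * Q) := by
  intro m
  classical
  rw [coeff_mul, coeff_mul]
  refine (Finset.abs_sum_le_sum_abs _ _).trans (Finset.sum_le_sum fun x _ => ?_)
  rw [abs_mul]
  exact mul_le_mul (h1 _) (h2 _) (abs_nonneg _) ((abs_nonneg _).trans (h1 _))

lemma Dominates.pow {A P : MvPolynomial (Fin 4) ℤ} (h : Dominates A P) :
    ∀ n : ℕ, Dominates (A ^ n) (P ^ n)
  | 0 => fun m => by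
    classical
    simp only [pow_zero, coeff_one]
    split_ifs <;> simp
  | n + 1 => by rw [pow_succ, pow_succ]; exact (h.pow n).mul h

lemma Ex.exists_dominating (e : Ex) :
    ∃ A, Dominates A e.poly ∧ eval (fun _ => (1 : ℤ)) A = (e.nrm : ℤ) := by
  classical
  induction e with
  | var i =>
    exact ⟨X i, fun m => by simp only [Ex.poly, coeff_X]; split_ifs <;> simp, by simp [Ex.nrm]⟩
  | cst n =>
    exact ⟨C |n|, fun m => by simp only [Ex.poly, coeff_C]; split_ifs <;> simp,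
      by simp [Ex.nrm]⟩
  | add p q ihp ihq =>
    obtain ⟨A, hA, eA⟩ := ihp
    obtain ⟨B, hB, eB⟩ := ihq
    refine ⟨A + B, fun m => ?_, by simp [Ex.nrm, eA, eB]⟩
    simp only [Ex.poly, coeff_add]
    exact (abs_add_le _ _).trans (add_le_add (hA m) (hB m))
  | mul p q ihp ihq =>
    obtain ⟨A, hA, eA⟩ := ihp
    obtain ⟨B, hB, eB⟩ := ihq
    exact ⟨A * B, hA.mul hB, by simp [Ex.nrm, eA, eB]⟩
  | pow p n ih =>
    obtain ⟨A, hA, eA⟩ := ih
    exact ⟨A ^ n, hA.pow n, by simp [Ex.nrm, eA]⟩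

lemma Ex.coeff_le (e : Ex) (m : Fin 4 →₀ ℕ) : |coeff m e.poly| ≤ (e.nrm : ℤ) := by
  obtain ⟨A, hA, eA⟩ := e.exists_dominating
  refine (hA m).trans ?_
  rw [← eA, eval_eq]
  simp only [one_pow, Finset.prod_const_one, mul_one]
  by_cases hm : m ∈ A.support
  · exact Finset.single_le_sum (fun d _ => (abs_nonneg _).trans (hA d)) hm
  · rw [notMem_support_iff] at hm
    rw [hm]
    exact Finset.sum_nonneg fun d _ => (abs_nonneg _).trans (hA d)

/-- Digit test by halving. -/
def check (B h : ℕ) : ℕ → ℕ → Bool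
  | 0, T => decide (h ≤ T)
  | k + 1, T => check B h k (T % B ^ (2 ^ k)) && check B h k (T / B ^ (2 ^ k))

/-- The repunit with 2^k digits. -/
def rep (B : ℕ) : ℕ → ℕ
  | 0 => 1
  | k + 1 => rep B k * (1 + B ^ (2 ^ k))

lemma digits_lt {B : ℕ} (g : ℕ → ℕ) (hg : ∀ i, g i < B) :
    ∀ n, ∑ i ∈ range n, g i * B ^ i < B ^ n
  | 0 => by simp
  | n + 1 => by
    rw [sum_range_succ]
    have h1 := digits_lt g hg n
    have h2 := Nat.mul_le_mul_right (B ^ n) (hg n)
    rw [Nat.succ_mul] at h2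
    calc ∑ i ∈ range n, g i * B ^ i + g n * B ^ n < g n * B ^ n + B ^ n := by linarith
      _ ≤ B * B ^ n := h2
      _ = B ^ (n + 1) := by rw [pow_succ, mul_comm]

lemma check_sound {B h : ℕ} (hB : 0 < B) :
    ∀ (k : ℕ) (g : ℕ → ℕ), (∀ i, g i < B) →
      check B h k (∑ i ∈ range (2 ^ k), g i * B ^ i) = true → ∀ i < 2 ^ k, h ≤ g i
  | 0, g, _, hc, i, hi => by
    simp [check] at hc hi
    subst hi
    exact hc
  | k + 1, g, hg, hc, i, hi => by
    set n := 2 ^ k with hn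
    have h2 : 2 ^ (k + 1) = n + n := by rw [pow_succ]; omega
    have hsum : ∑ i ∈ range (2 ^ (k + 1)), g i * B ^ i
        = ∑ i ∈ range n, g i * B ^ i + B ^ n * ∑ i ∈ range n, g (n + i) * B ^ i := by
      rw [h2, sum_range_add, mul_sum]
      congr 1
      refine sum_congr rfl fun i _ => ?_
      rw [pow_add]; ring
    have hlow := digits_lt g hg n
    simp only [check, Bool.and_eq_true, hsum, ← hn] at hc
    rw [Nat.add_mul_mod_self_left, Nat.mod_eq_of_lt hlow,
      Nat.add_mul_div_left _ _ (pow_pos hB n), Nat.div_eq_of_lt hlow, zero_add] at hc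
    rcases lt_or_ge i n with hin | hin
    · exact check_sound hB k g hg hc.1 i hin
    · have := check_sound hB k (fun j => g (n + j)) (fun j => hg _) hc.2 (i - n) (by omega)
      simpa [Nat.add_sub_cancel' hin] using this

lemma rep_eq (B : ℕ) : ∀ k, rep B k = ∑ i ∈ range (2 ^ k), B ^ i
  | 0 => by simp [rep]
  | k + 1 => by
    rw [rep, rep_eq B k, show 2 ^ (k + 1) = 2 ^ k + 2 ^ k by rw [pow_succ]; omega, sum_range_add,
      mul_add, mul_one, sum_mul]
    congr 1
    exact sum_congr rfl fun i _ => by rw [pow_add]; ring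

/-- Mixed-radix index of a monomial. -/
def idx (W : Fin 4 → ℕ) (m : Fin 4 →₀ ℕ) : ℕ :=
  m 0 + W 0 * (m 1 + W 1 * (m 2 + W 2 * m 3))

/-- Value at the packed point in base `B`. -/
def Ex.packed (e : Ex) (W : Fin 4 → ℕ) (B : ℕ) : ℤ :=
  e.evZ B ((B ^ W 0 : ℕ) : ℤ) ((B ^ (W 0 * W 1) : ℕ) : ℤ) ((B ^ (W 0 * W 1 * W 2) : ℕ) : ℤ)

/-- Degrees and coefficients fit the packing. -/
def fits (e : Ex) (W : Fin 4 → ℕ) (s : ℕ) : Bool :=
  decide (e.degB 0 < W 0) && decide (e.degB 1 < W 1) && decide (e.degB 2 < W 2) &&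
    decide (e.degB 3 < W 3) && decide (e.nrm < 2 ^ s)

lemma fits_spec {e : Ex} {W : Fin 4 → ℕ} {s : ℕ} (h : fits e W s = true) :
    (∀ m ∈ e.poly.support, ∀ i, m i < W i) ∧ (e.nrm : ℤ) < 2 ^ s := by
  simp only [fits, Bool.and_eq_true, decide_eq_true_eq] at h
  obtain ⟨⟨⟨⟨h0, h1⟩, h2⟩, h3⟩, hn⟩ := h
  refine ⟨fun m hm i => ?_, by exact_mod_cast hn⟩
  have := (degreeOf_le_iff.1 (e.degreeOf_le i)) m hm
  fin_cases i <;> simp_all <;> omega

lemma idx_lt {W : Fin 4 → ℕ} {m : Fin 4 →₀ ℕ} (h : ∀ i, m i < W i) :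
    idx W m < W 0 * W 1 * W 2 * W 3 := by
  have step : ∀ {a A b N : ℕ}, a < A → b < N → a + A * b < A * N := fun {a A b N} ha hb =>
    lt_of_lt_of_le (Nat.add_lt_add_right ha _)
      (by rw [show A + A * b = A * (b + 1) by ring]; exact Nat.mul_le_mul_left _ hb)
  rw [show W 0 * W 1 * W 2 * W 3 = W 0 * (W 1 * (W 2 * W 3)) by ring]
  exact step (h 0) (step (h 1) (step (h 2) (h 3)))

lemma idx_inj {W : Fin 4 → ℕ} {m m' : Fin 4 →₀ ℕ} (h : ∀ i, m i < W i) (h' : ∀ i, m' i < W i)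
    (he : idx W m = idx W m') : m = m' := by
  have split : ∀ {a a' A b b' : ℕ}, a < A → a' < A → a + A * b = a' + A * b' → a = a' ∧ b = b' := by
    intro a a' A b b' ha ha' e
    have h1 : a = a' := by
      have := congrArg (· % A) e
      simpa [Nat.add_mul_mod_self_left, Nat.mod_eq_of_lt ha, Nat.mod_eq_of_lt ha'] using this
    exact ⟨h1, Nat.eq_of_mul_eq_mul_left (by omega : 0 < A) (by omega)⟩
  obtain ⟨a0, e1⟩ := split (h 0) (h' 0) he
  obtain ⟨a1, e2⟩ := split (h 1) (h' 1) e1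
  obtain ⟨a2, a3⟩ := split (h 2) (h' 2) e2
  ext i; fin_cases i <;> assumption

/-- The packed value lists the coefficients as digits. -/
lemma packed_eq {e : Ex} {W : Fin 4 → ℕ} {N : ℕ} (hW : ∀ m ∈ e.poly.support, ∀ i, m i < W i)
    (hN : W 0 * W 1 * W 2 * W 3 ≤ N) :
    ∃ f : ℕ → ℤ, (∀ i, |f i| ≤ (e.nrm : ℤ)) ∧
      (∀ m ∈ e.poly.support, idx W m < N ∧ f (idx W m) = coeff m e.poly) ∧
      ∀ B : ℕ, e.packed W B = ∑ i ∈ range N, f i * (B : ℤ) ^ i := by
  classical
  set P := e.poly with hP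
  let f : ℕ → ℤ := fun i => ∑ m ∈ P.support with idx W m = i, coeff m P
  have hlt : ∀ m ∈ P.support, idx W m < N := fun m hm => (idx_lt (hW m hm)).trans_le hN
  have hfm : ∀ m ∈ P.support, f (idx W m) = coeff m P := by
    intro m hm
    refine Finset.sum_eq_single m (fun m' hm' hne => ?_) (fun h => ?_)
    · rw [Finset.mem_filter] at hm'
      exact absurd (idx_inj (hW m' hm'.1) (hW m hm) hm'.2) hne
    · exact absurd (Finset.mem_filter.2 (show m ∈ P.support ∧ idx W m = idx W m from ⟨hm, rfl⟩)) h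
  refine ⟨f, fun i => ?_, fun m hm => ⟨hlt m hm, hfm m hm⟩, fun B => ?_⟩
  · by_cases hex : ∃ m ∈ P.support, idx W m = i
    · obtain ⟨m, hm, rfl⟩ := hex
      rw [hfm m hm]; exact e.coeff_le m
    · have : f i = 0 := Finset.sum_eq_zero fun m hm => by
        rw [Finset.mem_filter] at hm
        exact absurd ⟨m, hm⟩ hex
      rw [this, abs_zero]; positivity
  · rw [Ex.packed, ← Ex.eval_poly, eval_eq', ← hP]
    simp only [f, Finset.sum_mul]
    rw [← Finset.sum_fiberwise_of_maps_to (t := range N) (g := idx W)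
      (fun m hm => mem_range.2 (hlt m hm))]
    refine sum_congr rfl fun i _ => sum_congr rfl fun m hm => ?_
    rw [Finset.mem_filter] at hm
    rw [← hm.2]
    simp [Fin.prod_univ_four, idx, ← pow_mul, ← pow_add, mul_add, mul_assoc, add_assoc]

/-- Positivity test: `k` with `2 ^ k` at least the number of slots, `s` bits per coefficient. -/
def testNN (e : Ex) (W : Fin 4 → ℕ) (k s : ℕ) : Bool :=
  fits e W s && decide (W 0 * W 1 * W 2 * W 3 ≤ 2 ^ k) &&
    (let B : ℕ := 2 ^ (s + 1)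
     check B (2 ^ s) k (e.packed W B + ((2 ^ s * rep B k : ℕ) : ℤ)).toNat)

theorem nonneg_of_testNN {e : Ex} {W : Fin 4 → ℕ} {k s : ℕ} (ht : testNN e W k s = true)
    (x : Fin 4 → ℝ) (hx : ∀ i, 0 ≤ x i) : 0 ≤ e.evR x := by
  classical
  simp only [testNN, Bool.and_eq_true, decide_eq_true_eq] at ht
  obtain ⟨⟨hfit, hk⟩, hc⟩ := ht
  obtain ⟨hW, hn⟩ := fits_spec hfit
  obtain ⟨f, hfb, hfm, hev⟩ := packed_eq hW hk
  set B := 2 ^ (s + 1) with hBdef
  have hh : ∀ i, 0 ≤ f i + (2 ^ s : ℤ) ∧ f i + (2 ^ s : ℤ) < (B : ℤ) := by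
    intro i
    have h1 := abs_le.1 (hfb i)
    have h3 : (B : ℤ) = 2 * 2 ^ s := by rw [hBdef]; push_cast; ring
    constructor <;> linarith [h1.1, h1.2]
  let g : ℕ → ℕ := fun i => (f i + (2 ^ s : ℤ)).toNat
  have hgc : ∀ i, (g i : ℤ) = f i + 2 ^ s := fun i => Int.toNat_of_nonneg (hh i).1
  have hg : ∀ i, g i < B := fun i => by
    have := (hh i).2
    rw [← hgc] at this
    exact_mod_cast this
  have hT : e.packed W B + ((2 ^ s * rep B k : ℕ) : ℤ)
      = ((∑ i ∈ range (2 ^ k), g i * B ^ i : ℕ) : ℤ) := by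
    rw [hev, rep_eq, Finset.mul_sum]
    push_cast
    rw [← sum_add_distrib]
    refine sum_congr rfl fun i _ => ?_
    rw [hgc]; ring
  rw [hT, Int.toNat_natCast] at hc
  have hall := check_sound (by rw [hBdef]; positivity) k g hg hc
  rw [← e.aeval_poly, aeval_def, eval₂_eq']
  refine Finset.sum_nonneg fun m hm =>
    mul_nonneg ?_ (Finset.prod_nonneg fun i _ => pow_nonneg (hx i) _)
  obtain ⟨hlt, hco⟩ := hfm m hm
  have h2 : ((2 ^ s : ℕ) : ℤ) ≤ (g (idx W m) : ℤ) := by exact_mod_cast hall (idx W m) hlt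
  rw [hgc, hco] at h2
  push_cast at h2
  have h4 : 0 ≤ coeff m e.poly := by linarith
  simpa using (Int.cast_nonneg h4 : (0 : ℝ) ≤ _)

lemma digits_zero {B : ℤ} (hB : 0 < B) : ∀ (n : ℕ) (f : ℕ → ℤ), (∀ i, |f i| < B) →
    ∑ i ∈ range n, f i * B ^ i = 0 → ∀ i < n, f i = 0
  | 0, _, _, _, i, hi => absurd hi (Nat.not_lt_zero i)
  | n + 1, f, hf, h, i, hi => by
    have e : ∑ j ∈ range (n + 1), f j * B ^ j
        = B * (∑ j ∈ range n, f (j + 1) * B ^ j) + f 0 := by
      rw [sum_range_succ', mul_sum, pow_zero, mul_one]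
      congr 1
      exact sum_congr rfl fun j _ => by ring
    rw [e] at h
    have h0 : f 0 = 0 := Int.eq_zero_of_abs_lt_dvd
      ⟨-(∑ j ∈ range n, f (j + 1) * B ^ j), by linarith⟩ (hf 0)
    rw [h0, add_zero, mul_eq_zero, or_iff_right hB.ne'] at h
    rcases i with _ | i
    · exact h0
    · exact digits_zero hB n (fun j => f (j + 1)) (fun j => hf _) h i (by omega)

/-- Identity test: `s` bits per coefficient. -/
def testZero (e : Ex) (W : Fin 4 → ℕ) (s : ℕ) : Bool :=
  fits e W s && decide (e.packed W (2 ^ (s + 1)) = 0)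

theorem zero_of_testZero {e : Ex} {W : Fin 4 → ℕ} {s : ℕ} (ht : testZero e W s = true)
    (x : Fin 4 → ℝ) : e.evR x = 0 := by
  classical
  simp only [testZero, Bool.and_eq_true, decide_eq_true_eq] at ht
  obtain ⟨hfit, hz⟩ := ht
  obtain ⟨hW, hn⟩ := fits_spec hfit
  obtain ⟨f, hfb, hfm, hev⟩ := packed_eq (N := W 0 * W 1 * W 2 * W 3) hW le_rfl
  rw [hev] at hz
  have h0 := digits_zero (B := ((2 ^ (s + 1) : ℕ) : ℤ)) (by positivity) _ f (fun i => by
    refine (hfb i).trans_lt (hn.trans_le ?_)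
    push_cast
    exact pow_le_pow_right₀ (by norm_num) (Nat.le_succ s)) hz
  rw [← e.aeval_poly, aeval_def, eval₂_eq']
  refine Finset.sum_eq_zero fun m hm => ?_
  obtain ⟨hlt, hco⟩ := hfm m hm
  exact absurd (hco.symm.trans (h0 _ hlt)) (mem_support_iff.1 hm)

end Vale.Agent.P154.Neg.Large.Kron
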