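import Vale.Agent.P154.Neg.Large.Defs
import Vale.Agent.P154.Neg.Large.Data
import Vale.Agent.P154.Neg.Large.Kron

/-!
# P154: the certificate expressions of the small-edge potential
-/

namespace Vale.Agent.P154.Neg.Large

open Kron

/-- Value of a term at scaled invariants. -/
noncomputable def Term.val (t : Term) (l A B C D : ℝ) : ℝ :=
  (t.c : ℝ) * l ^ t.e * (A ^ t.i * B ^ t.j) * (C ^ t.m * D ^ t.n)

/-- Value of a list of terms. -/
noncomputable def evT (L : List Term) (l A B C D : ℝ) : ℝ :=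
  (L.map fun t => t.val l A B C D).sum

@[simp] lemma evT_nil (l A B C D : ℝ) : evT [] l A B C D = 0 := rfl

@[simp] lemma evT_cons (t : Term) (L : List Term) (l A B C D : ℝ) :
    evT (t :: L) l A B C D = t.val l A B C D + evT L l A B C D := rfl

lemma evT_append (L M : List Term) (l A B C D : ℝ) :
    evT (L ++ M) l A B C D = evT L l A B C D + evT M l A B C D := by
  simp [evT]

/-- Does a term depend on the child? -/
def hasChild (t : Term) : Bool := !(t.i == 0 && t.j == 0)

/-- A term of the orbit sum, moved to the right and divided by the square of the edge. -/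
def shiftT (t : Term) : Term := ⟨-t.c, 2 * t.i + 3 * t.j - 2, t.i, t.j, t.m, t.n⟩

/-- The difference of the two sides, divided by the square of the edge. -/
def gTerms (k : Fin 2) : List Term := xTerms k ++ ((vTerms k).filter hasChild).map shiftT

lemma evT_shift (l A B C D : ℝ) : ∀ L : List Term, (∀ t ∈ L, t.e = 0) →
    evT L 1 (l ^ 2 * A) (l ^ 3 * B) C D
      = evT (L.filter fun t => !hasChild t) 1 A B C D
        - l ^ 2 * evT ((L.filter hasChild).map shiftT) l A B C D
  | [], _ => by simp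
  | t :: L, he => by
    have ih := evT_shift l A B C D L fun u hu => he u (List.mem_cons_of_mem _ hu)
    have e0 := he t List.mem_cons_self
    by_cases hc : hasChild t = true
    · have h2 : 2 ≤ 2 * t.i + 3 * t.j := by
        simp [hasChild] at hc
        omega
      simp only [List.filter_cons, hc, if_true, Bool.not_true, Bool.false_eq_true, if_false,
        List.map_cons, evT_cons, ih, Term.val, shiftT, e0]
      obtain ⟨r, hr⟩ := Nat.exists_eq_add_of_le h2
      rw [hr, Nat.add_sub_cancel_left, mul_pow, mul_pow, ← pow_mul, ← pow_mul]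
      have : (l ^ (2 * t.i) : ℝ) * l ^ (3 * t.j) = l ^ 2 * l ^ r := by
        rw [← pow_add, ← pow_add, hr]
      push_cast
      linear_combination (t.c : ℝ) * A ^ t.i * B ^ t.j * (C ^ t.m * D ^ t.n) * this
    · simp only [Bool.not_eq_true] at hc
      have hij : t.i = 0 ∧ t.j = 0 := by simpa [hasChild] using hc
      simp only [List.filter_cons, hc, Bool.not_false, if_true, Bool.false_eq_true, if_false,
        evT_cons, ih, Term.val, e0, hij.1, hij.2]
      ring

/-- Sum of expressions. -/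
def sumEx : List Kron.Ex → Kron.Ex
  | [] => .cst 0
  | e :: L => .add e (sumEx L)

lemma evR_sumEx (x : Fin 4 → ℝ) : ∀ L : List Kron.Ex,
    (sumEx L).evR x = (L.map fun e => e.evR x).sum
  | [] => by simp [sumEx, Kron.Ex.evR]
  | e :: L => by simp [sumEx, Kron.Ex.evR, evR_sumEx x L]

/-- A polynomial with integer coefficients by increasing degree. -/
def polyEx (x : Kron.Ex) : List ℤ → Kron.Ex
  | [] => .cst 0
  | [c] => .cst c
  | c :: L => .add (.cst c) (.mul x (polyEx x L))

/-- Linearised functional of an atom, scaled by `uM`. -/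
def uEx (k : Fin 2) (z : Fin 3 → Kron.Ex) : Kron.Ex :=
  let d : Kron.Ex := .add (z 0) (.add (z 1) (z 2))
  let D : Kron.Ex := .add d (.cst (-1))
  let e2 : Kron.Ex := .add (.mul (z 0) (z 1)) (.add (.mul (z 0) (z 2)) (.mul (z 1) (z 2)))
  let e3 : Kron.Ex := .mul (z 0) (.mul (z 1) (z 2))
  .add (.mul (.cst (uLin k)) d) (.add (.mul e2 (polyEx D (uX k)))
    (.add (.mul e3 (polyEx D (uT k)))
      (.mul (.pow (.add (.mul d d) (.mul (.cst (-3)) e2)) 2) (polyEx D (uU k)))))

/-- The six relabellings as a table. -/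
def tab6 : Fin 6 → Fin 3 → Fin 3 :=
  ![![0, 1, 2], ![1, 0, 2], ![2, 1, 0], ![0, 2, 1], ![1, 2, 0], ![2, 0, 1]]

lemma tab6_eq : ∀ s i, perm6 s i = tab6 s i := by decide

/-- First probability vector. -/
def aEx : Fin 3 → Kron.Ex :=
  ![.var 0, .var 1, .add (.cst 1) (.mul (.cst (-1)) (.add (.var 0) (.var 1)))]

/-- Second probability vector. -/
def bEx : Fin 3 → Kron.Ex :=
  ![.var 2, .var 3, .add (.cst 1) (.mul (.cst (-1)) (.add (.var 2) (.var 3)))]

/-- Three times the deviations. -/
def devEx (a : Fin 3 → Kron.Ex) (i : Fin 3) : Kron.Ex := .add (.mul (.cst 3) (a i)) (.cst (-1))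

/-- Scaled second moment. -/
def s6Ex (a : Fin 3 → Kron.Ex) : Kron.Ex :=
  .add (.pow (devEx a 0) 2) (.add (.pow (devEx a 1) 2) (.pow (devEx a 2) 2))

/-- Scaled third moment. -/
def c6Ex (a : Fin 3 → Kron.Ex) : Kron.Ex :=
  .add (.pow (devEx a 0) 3) (.add (.pow (devEx a 1) 3) (.pow (devEx a 2) 3))

/-- Product atom. -/
def zEx (s : Fin 6) (i : Fin 3) : Kron.Ex := .mul (.cst 3) (.mul (aEx i) (bEx (tab6 s i)))

/-- One term of the orbit sum. -/
def vtermEx (t : Term) : Kron.Ex :=
  .mul (.cst t.c) (.mul (.mul (.pow (s6Ex aEx) t.i) (.pow (c6Ex aEx) t.j))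
    (.mul (.pow (s6Ex bEx) t.m) (.pow (c6Ex bEx) t.n)))

/-- The identity of the orbit sum. -/
def idEx (k : Fin 2) : Kron.Ex :=
  .add (.mul (.cst ((uD k / uM k : ℕ) : ℤ)) (sumEx ((List.finRange 6).map fun s => uEx k (zEx s))))
    (.mul (.cst (-1)) (sumEx ((vTerms k).map vtermEx)))

/-- Twice the parameter of a region, in the variable `y = x/(1-x)`, times `1+y`. -/
def tEx (R : Bool) (y : Kron.Ex) : Kron.Ex := if R then .add (.cst 1) (.mul (.cst 2) y) else y

/-- One plus a variable. -/
def onePlus (y : Kron.Ex) : Kron.Ex := .add (.cst 1) y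

/-- Upper end of the third moment in a region, scaled. -/
def upEx (R : Bool) (y : Kron.Ex) : Kron.Ex := .pow (tEx R y) 3

/-- Lower end of the third moment in a region, scaled. -/
def loEx (R : Bool) (y : Kron.Ex) : Kron.Ex :=
  if R then .mul (onePlus y)
    (.add (.mul (.cst 3) (.pow (tEx R y) 2)) (.mul (.cst (-4)) (.pow (onePlus y) 2)))
  else .mul (.cst (-1)) (.pow y 3)

/-- Three times the blossom of `C^j` at Bernstein index `q`. -/
def blosEx (q : Fin 4) (j : ℕ) (lo up : Kron.Ex) : Kron.Ex :=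
  match j with
  | 0 => .cst 3
  | 1 => .add (.mul (.cst (3 - (q.val : ℤ))) lo) (.mul (.cst (q.val : ℤ)) up)
  | 2 => if q = 0 then .mul (.cst 3) (.pow lo 2)
      else if q = 1 then .add (.pow lo 2) (.mul (.cst 2) (.mul lo up))
      else if q = 2 then .add (.pow up 2) (.mul (.cst 2) (.mul lo up))
      else .mul (.cst 3) (.pow up 2)
  | _ => .mul (.cst 3) (.mul (.pow lo (3 - q.val)) (.pow up q.val))

/-- One side of the tensor Bernstein form. -/
def sideEx (R : Bool) (q : Fin 4) (i j : ℕ) (y : Kron.Ex) : Kron.Ex :=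
  .mul (.cst ((2 ^ (10 - (2 * i + 3 * j)) * 6 ^ (i + j) : ℕ) : ℤ))
    (.mul (.pow (onePlus y) (10 - (2 * i + 3 * j)))
      (.mul (.pow (tEx R y) (2 * i)) (blosEx q j (loEx R y) (upEx R y))))

/-- The child's side: in the lower region the factor `y^2` is removed. -/
def childEx (R : Bool) (q : Fin 4) (i j : ℕ) (y : Kron.Ex) : Kron.Ex :=
  if R then sideEx R q i j y
  else .mul (.cst ((2 ^ (10 - (2 * i + 3 * j)) * 6 ^ (i + j) : ℕ) : ℤ))
    (.mul (.pow (onePlus y) (10 - (2 * i + 3 * j)))
      (.mul (.pow y (2 * i + 3 * j - 2)) (blosEx q j (.cst (-1)) (.cst 1))))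

/-- One term of a piece. -/
def gtermEx (R S : Bool) (p q : Fin 4) (t : Term) : Kron.Ex :=
  .mul (.mul (.cst (t.c * (-1) ^ t.e * 3 ^ (8 - t.e)))
      (.mul (.pow (.var 0) t.e) (.pow (onePlus (.var 0)) (8 - t.e))))
    (.mul (childEx R p t.i t.j (.var 1)) (sideEx S q t.m t.n (.var 2)))

/-- One tensor Bernstein coefficient. -/
def pieceEx (k : Fin 2) (R S : Bool) (p q : Fin 4) : Kron.Ex :=
  sumEx ((gTerms k).map (gtermEx R S p q))

/-- Shape restrictions on the terms. -/
def termOk (t : Term) : Bool :=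
  decide (t.e ≤ 8) && decide (2 ≤ 2 * t.i + 3 * t.j) && decide (2 * t.i + 3 * t.j ≤ 10) &&
    decide (2 * t.m + 3 * t.n ≤ 10)

lemma gTerms_ok : ∀ k, ∀ t ∈ gTerms k, termOk t = true := by decide +kernel

lemma vTerms_zero : ∀ k, ∀ t ∈ vTerms k, t.e = 0 := by decide +kernel

end Vale.Agent.P154.Neg.Large
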